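import Mathlib

/-!
# [L2] of helper984's chain (board #5453): extraction of one slot pattern

`psi` is a symmetric multilinear form.  If it kills the diagonal arguments
`E0 + ∑ l, (t l • Y (l, false) + (t l)^2 • Y (l, true))` for all `t`, and kills every pattern in
which more than `card α` slots are filled with `Y`'s, then it kills the pattern in which slot
`sg l` is filled with `Y (l, e l)` and all other slots with `E0`.
-/

namespace Vale.Agent.P181.H445

open MvPolynomial

set_option linter.unusedSectionVars false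

variable {ι α W : Type*} [Fintype ι] [DecidableEq ι] [Fintype α] [DecidableEq α]
  [AddCommGroup W] [Module ℂ W]

/-- the exponent vector of a slot value -/
noncomputable def dg (o : Option (α × Bool)) : α →₀ ℕ :=
  o.elim 0 (fun p => Finsupp.single p.1 (if p.2 then 2 else 1))

/-- the value of a slot -/
def slot (E0 : W) (Y : α × Bool → W) (o : Option (α × Bool)) : W := o.elim E0 Y

lemma dg_apply_ne_zero {o : Option (α × Bool)} {l : α} (h : dg o l ≠ 0) :
    ∃ b, o = some (l, b) := by
  cases o with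
  | none => simp [dg] at h
  | some p =>
    obtain ⟨l', b⟩ := p
    by_cases hl : l' = l
    · subst hl; exact ⟨b, rfl⟩
    · simp [dg, hl] at h

/-- the expansion of the diagonal value -/
lemma expand (psi : MultilinearMap ℂ (fun _ : ι => W) ℂ) (E0 : W) (Y : α × Bool → W) (t : α → ℂ) :
    psi (fun _ => E0 + ∑ l, (t l • Y (l, false) + (t l) ^ 2 • Y (l, true))) =
      ∑ f : ι → Option (α × Bool),
        (∏ i, MvPolynomial.eval t (monomial (dg (f i)) (1 : ℂ))) * psi (fun i => slot E0 Y (f i)) := by
  have h1 : E0 + ∑ l, (t l • Y (l, false) + (t l) ^ 2 • Y (l, true)) =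
      ∑ o : Option (α × Bool),
        (MvPolynomial.eval t (monomial (dg o) (1 : ℂ))) • slot E0 Y o := by
    rw [Fintype.sum_option, Fintype.sum_prod_type]
    congr 1
    · simp [dg, slot]
    · refine Finset.sum_congr rfl fun l _ => ?_
      rw [Fintype.sum_bool]
      simp [dg, slot, eval_monomial, add_comm]
  rw [h1]
  rw [MultilinearMap.map_sum]
  refine Finset.sum_congr rfl fun f _ => ?_
  rw [MultilinearMap.map_smul_univ]
  rfl

/-- two injections into a finite type differ by a permutation -/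
lemma exists_perm (sg : α ↪ ι) (g : α ↪ ι) : ∃ σ : Equiv.Perm ι, ∀ l, σ (sg l) = g l := by
  classical
  let e : {x // x ∈ Set.range sg} ≃ {x // x ∈ Set.range g} :=
    (Equiv.ofInjective sg sg.injective).symm.trans (Equiv.ofInjective g g.injective)
  refine ⟨e.extendSubtype, fun l => ?_⟩
  rw [Equiv.extendSubtype_apply_of_mem e (sg l) ⟨l, rfl⟩]
  simp only [e, Equiv.trans_apply]
  have : (Equiv.ofInjective sg sg.injective).symm ⟨sg l, ⟨l, rfl⟩⟩ = l := by
    rw [Equiv.symm_apply_eq]; rfl
  rw [this]; rfl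

/-- the pattern of `sg`, `e` -/
noncomputable def pat (sg : α ↪ ι) (e : α → Bool) (i : ι) : Option (α × Bool) :=
  by classical exact if h : ∃ l, sg l = i then some (h.choose, e h.choose) else none

lemma pat_sg (sg : α ↪ ι) (e : α → Bool) (l : α) : pat sg e (sg l) = some (l, e l) := by
  have h : ∃ l', sg l' = sg l := ⟨l, rfl⟩
  have h2 : h.choose = l := sg.injective h.choose_spec
  simp only [pat]
  rw [dif_pos h, h2]

lemma pat_none (sg : α ↪ ι) (e : α → Bool) (i : ι) (h : ¬ ∃ l, sg l = i) : pat sg e i = none := by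
  simp only [pat]
  rw [dif_neg h]

/-- the exponent vector wanted -/
noncomputable def want (e : α → Bool) : α →₀ ℕ :=
  Finsupp.equivFunOnFinite.symm (fun l => if e l then 2 else 1)

lemma sum_dg_pat (sg : α ↪ ι) (e : α → Bool) : ∑ i, dg (pat sg e i) = want e := by
  classical
  have h1 : ∑ i, dg (pat sg e i) = ∑ i ∈ Finset.univ.map sg, dg (pat sg e i) := by
    symm
    apply Finset.sum_subset (Finset.subset_univ _)
    intro i _ hi
    rw [pat_none]
    · rfl
    · rintro ⟨l, hl⟩
      exact hi (by simp [← hl])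
  rw [h1, Finset.sum_map]
  ext l
  rw [Finsupp.finsetSum_apply]
  simp only [pat_sg]
  simp [dg, want, Finsupp.single_apply]

lemma pattern_of_deg {f : ι → Option (α × Bool)} {e : α → Bool}
    (hd : ∑ i, dg (f i) = want e) :
    Fintype.card α ≤ Fintype.card {i // f i ≠ none} ∧
    (Fintype.card {i // f i ≠ none} = Fintype.card α →
      ∃ g : α ↪ ι, (∀ l, f (g l) = some (l, e l)) ∧ ∀ i, (¬ ∃ l, g l = i) → f i = none) := by
  classical
  have hdl : ∀ l, ∑ i, dg (f i) l = if e l then 2 else 1 := by
    intro l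
    have := DFunLike.congr_fun hd l
    rw [Finsupp.finsetSum_apply] at this
    rw [this]; simp [want]
  have hex : ∀ l, ∃ i b, f i = some (l, b) := by
    intro l
    have hne : ∑ i, dg (f i) l ≠ 0 := by
      rw [hdl l]; split_ifs <;> norm_num
    obtain ⟨i, -, hi⟩ := Finset.exists_ne_zero_of_sum_ne_zero hne
    obtain ⟨b, hb⟩ := dg_apply_ne_zero hi
    exact ⟨i, b, hb⟩
  choose g b hg using hex
  have ginj : Function.Injective g := by
    intro l l' h
    have h1 := hg l
    rw [h, hg l'] at h1
    simp only [Option.some.injEq, Prod.mk.injEq] at h1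
    exact h1.1.symm
  let G : α → {i // f i ≠ none} := fun l => ⟨g l, by rw [hg l]; simp⟩
  have Ginj : Function.Injective G := fun l l' h => ginj (congrArg Subtype.val h)
  refine ⟨Fintype.card_le_of_injective G Ginj, fun hcard => ?_⟩
  have Gbij : Function.Bijective G :=
    (Fintype.bijective_iff_injective_and_card G).2 ⟨Ginj, hcard.symm⟩
  have hnone : ∀ i, (¬ ∃ l, g l = i) → f i = none := by
    intro i hi
    by_contra hfi
    obtain ⟨l, hl⟩ := Gbij.2 ⟨i, hfi⟩
    exact hi ⟨l, congrArg Subtype.val hl⟩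
  refine ⟨⟨g, ginj⟩, fun l => ?_, hnone⟩
  -- the exponent of `l` comes from slot `g l` only
  have hsum : ∑ i, dg (f i) l = dg (f (g l)) l := by
    apply Finset.sum_eq_single (g l)
    · intro i _ hi
      by_contra hne
      obtain ⟨b', hb'⟩ := dg_apply_ne_zero hne
      have hfi : f i ≠ none := by rw [hb']; simp
      obtain ⟨l', hl'⟩ := Gbij.2 ⟨i, hfi⟩
      have hi' : g l' = i := congrArg Subtype.val hl'
      have h2 := hg l'
      rw [hi', hb'] at h2
      simp only [Option.some.injEq, Prod.mk.injEq] at h2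
      exact hi (by rw [← hi', ← h2.1])
    · intro h; exact absurd (Finset.mem_univ _) h
  rw [hdl l, hg l] at hsum
  simp only [dg, Option.elim, Finsupp.single_eq_same] at hsum
  show f (g l) = some (l, e l)
  rw [hg l]
  congr 2
  revert hsum
  cases e l <;> cases b l <;> simp

/-- **[L2]** -/
theorem extract (psi : MultilinearMap ℂ (fun _ : ι => W) ℂ)
    (hsymm : ∀ (σ : Equiv.Perm ι) (P : ι → W), psi (fun i => P (σ i)) = psi P)
    (E0 : W) (Y : α × Bool → W) (e : α → Bool) (sg : α ↪ ι)
    (IH : ∀ f : ι → Option (α × Bool), Fintype.card α < Fintype.card {i // f i ≠ none} →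
      psi (fun i => (f i).elim E0 Y) = 0)
    (E : ∀ t : α → ℂ,
      psi (fun _ => E0 + ∑ l, (t l • Y (l, false) + (t l) ^ 2 • Y (l, true))) = 0) :
    psi (fun i => (pat sg e i).elim E0 Y) = 0 := by
  classical
  set v : ℂ := psi (fun i => (pat sg e i).elim E0 Y) with hv
  -- the polynomial
  have hpoly : (∑ f : ι → Option (α × Bool),
      monomial (∑ i, dg (f i)) (psi (fun i => slot E0 Y (f i)))) = (0 : MvPolynomial α ℂ) := by
    apply MvPolynomial.funext
    intro t
    rw [map_zero, map_sum, ← E t, expand psi E0 Y t]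
    refine Finset.sum_congr rfl fun f _ => ?_
    have h1 : (monomial (∑ i, dg (f i)) (psi (fun i => slot E0 Y (f i))) : MvPolynomial α ℂ) =
        (∏ i, monomial (dg (f i)) (1 : ℂ)) * C (psi (fun i => slot E0 Y (f i))) := by
      rw [← MvPolynomial.monomial_sum_one, mul_comm, C_mul_monomial, mul_one]
    rw [h1, map_mul, map_prod, eval_C]
  have hc := congrArg (coeff (want e)) hpoly
  rw [coeff_zero, coeff_sum] at hc
  simp only [coeff_monomial] at hc
  rw [← Finset.sum_filter] at hc
  have hval : ∀ f ∈ (Finset.univ.filter fun f : ι → Option (α × Bool) =>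
      ∑ i, dg (f i) = want e), psi (fun i => slot E0 Y (f i)) =
        if Fintype.card {i // f i ≠ none} = Fintype.card α then v else 0 := by
    intro f hf
    have hd := (Finset.mem_filter.1 hf).2
    obtain ⟨hle, hpat⟩ := pattern_of_deg hd
    split_ifs with hcard
    · obtain ⟨g, hg, hn⟩ := hpat hcard
      obtain ⟨σ, hσ⟩ := exists_perm sg g
      rw [← hsymm σ (fun i => slot E0 Y (f i)), hv]
      congr 1
      funext i
      by_cases hi : ∃ l, sg l = i
      · obtain ⟨l, rfl⟩ := hi
        rw [hσ l, hg l, pat_sg]; rfl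
      · have h2 : ¬ ∃ l, g l = σ i := by
          rintro ⟨l, hl⟩
          rw [← hσ l] at hl
          exact hi ⟨l, σ.injective hl⟩
        rw [hn _ h2, pat_none _ _ _ hi]; rfl
    · exact IH f (lt_of_le_of_ne hle (Ne.symm hcard))
  rw [Finset.sum_congr rfl hval, ← Finset.sum_filter, Finset.sum_const, nsmul_eq_mul] at hc
  rcases mul_eq_zero.1 hc with h | h
  · exfalso
    rw [Nat.cast_eq_zero, Finset.card_eq_zero] at h
    have hmem : pat sg e ∈ (((Finset.univ.filter fun f : ι → Option (α × Bool) =>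
      ∑ i, dg (f i) = want e)).filter
        fun f => Fintype.card {i // f i ≠ none} = Fintype.card α) := by
      rw [Finset.mem_filter, Finset.mem_filter]
      refine ⟨⟨Finset.mem_univ _, sum_dg_pat sg e⟩, ?_⟩
      symm
      refine Fintype.card_of_bijective (f := fun l => (⟨sg l, by rw [pat_sg]; simp⟩ :
        {i // pat sg e i ≠ none})) ⟨fun l l' h => sg.injective (congrArg Subtype.val h), ?_⟩
      rintro ⟨i, hi⟩
      by_cases hi' : ∃ l, sg l = i
      · obtain ⟨l, hl⟩ := hi'
        exact ⟨l, Subtype.ext hl⟩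
      · exact absurd (pat_none _ _ _ hi') hi
    rw [h] at hmem
    exact absurd hmem (Finset.notMem_empty _)
  · exact h

/-- **[L2]**, literal form of #5453. -/
theorem extract' (psi : MultilinearMap ℂ (fun _ : ι => W) ℂ)
    (hsymm : ∀ (σ : Equiv.Perm ι) (P : ι → W), psi (fun i => P (σ i)) = psi P)
    (E0 : W) (Y : α × Bool → W) (e : α → Bool) (sg : α ↪ ι)
    (IH : ∀ f : ι → Option (α × Bool), Fintype.card α < Fintype.card {i // f i ≠ none} →
      psi (fun i => (f i).elim E0 Y) = 0)
    (E : ∀ t : α → ℂ,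
      psi (fun _ => E0 + ∑ l, (t l • Y (l, false) + (t l) ^ 2 • Y (l, true))) = 0) :
    psi (fun i => if h : ∃ l, sg l = i then Y (h.choose, e h.choose) else E0) = 0 := by
  rw [← extract psi hsymm E0 Y e sg IH E]
  congr 1
  funext i
  simp only [pat]
  split_ifs <;> rfl

/-- the same with the value given pointwise: any `P` with `P (sg l) = Y (l, e l)` and `P i = E0`
off the range of `sg`. -/
theorem extract_of (psi : MultilinearMap ℂ (fun _ : ι => W) ℂ)
    (hsymm : ∀ (σ : Equiv.Perm ι) (P : ι → W), psi (fun i => P (σ i)) = psi P)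
    (E0 : W) (Y : α × Bool → W) (e : α → Bool) (sg : α ↪ ι)
    (IH : ∀ f : ι → Option (α × Bool), Fintype.card α < Fintype.card {i // f i ≠ none} →
      psi (fun i => (f i).elim E0 Y) = 0)
    (E : ∀ t : α → ℂ,
      psi (fun _ => E0 + ∑ l, (t l • Y (l, false) + (t l) ^ 2 • Y (l, true))) = 0)
    (P : ι → W) (hP : ∀ l, P (sg l) = Y (l, e l)) (hP0 : ∀ i, (¬ ∃ l, sg l = i) → P i = E0) :
    psi P = 0 := by
  rw [← extract psi hsymm E0 Y e sg IH E]
  congr 1
  funext i
  by_cases hi : ∃ l, sg l = i
  · obtain ⟨l, rfl⟩ := hi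
    rw [hP, pat_sg]; rfl
  · rw [hP0 i hi, pat_none _ _ _ hi]; rfl

/-- **[L2]** in the exact letters of helper984 (#5612). -/
theorem extract_lit {W ι α : Type*} [AddCommGroup W] [Module ℂ W] [Fintype ι] [DecidableEq ι]
    [Fintype α] [DecidableEq α] (ψ : MultilinearMap ℂ (fun _ : ι => W) ℂ)
    (hs : ∀ (σ : Equiv.Perm ι) (P : ι → W), ψ (fun i => P (σ i)) = ψ P) (sg : α ↪ ι) (E0 : W)
    (Y : α × Bool → W) (e : α → Bool)
    (IH : ∀ f : ι → Option (α × Bool),
      Fintype.card α < (Finset.univ.filter (fun i => f i ≠ none)).card →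
      ψ (fun i => (f i).elim E0 Y) = 0)
    (E : ∀ t : α → ℂ,
      ψ (fun _ => E0 + ∑ l, (t l • Y (l, false) + (t l) ^ 2 • Y (l, true))) = 0)
    (g : ι → W) (hg1 : ∀ l, g (sg l) = Y (l, e l)) (hg2 : ∀ i, (∀ l, sg l ≠ i) → g i = E0) :
    ψ g = 0 :=
  extract_of ψ hs E0 Y e sg (fun f hf => IH f (by rwa [Fintype.card_subtype] at hf)) E g hg1
    (fun i hi => hg2 i (fun l hl => hi ⟨l, hl⟩))

end Vale.Agent.P181.H445
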