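import Vale.Agent.P181.H983.TallOne
import Vale.Agent.P181.H907.TallBest

set_option autoImplicit false

/-!
# P181: tall shapes, two remarks of helper663 for the union
-/

namespace Vale.Agent.P181.H445

open Vale.Agent.P181 Vale.Agent.P181.H280

/-- `λ_a ≥ b - a + 1` if `a + b` is odd and `a` is even, or `b = a + 1`, or `b ≥ 2 a`. -/
theorem tall_one (a b n : ℕ) (ha : 3 ≤ a) (hab : a ≤ b) (han : a ≤ n) (hodd : Odd (a + b))
    (hc : Even a ∨ b = a + 1 ∨ 2 * a ≤ b) (lam : Fin n → ℕ)
    (h1 : ∀ i : Fin n, (i : ℕ) < a → b + 1 ≤ lam i + a) :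
    plethMult a b n lam ≤ plethMult b a n lam := by
  rcases Nat.eq_or_lt_of_le (Nat.zero_le (b - 2 * a)) with h2 | h2
  · by_cases h3 : b = 2 * a
    · subst h3
      apply plethMult_le (by omega) (le_refl 2) han
      intro i hi
      have h4 := h1 i hi
      omega
    · refine H983.tall_one a b n ha hab han hodd ?_ lam h1
      rcases hc with h4 | h4 | h4
      · exact Or.inl h4
      · exact Or.inr (Or.inl h4)
      · exact absurd (by omega : b = 2 * a) h3
  · exact H983.tall_one a b n ha hab han hodd (Or.inr (Or.inr (by omega))) lam h1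

/-- `TQ.tallF`, where `λ_a = b - a` is the only exceptional value. -/
theorem tallF (a b n : ℕ) (ha : 3 ≤ a) (hab : 2 * a ≤ b) (han : a ≤ n) (lam : Fin n → ℕ)
    (hk : 1 ≤ b % a) (hka : b % a + 4 ≤ a ∨ (b % a = 1 ∧ 4 ≤ a))
    (hlo : ∀ i : Fin n, (i : ℕ) < a → b % a + 4 ≤ lam i + b % a % 2 ∧
      b % a + 2 * (b / a) ≤ lam i + 1 + b % a % 2)
    (hex : (∃ i : Fin n, (i : ℕ) < a ∧ lam i + a < b) ∨
      (∀ i : Fin n, (i : ℕ) < a → b < lam i + a) ∨ 2 * (b % a) + 3 ≤ a ∨
        Even (a + b % a) ∨ (Odd a ∧ 3 * a ≤ b)) :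
    plethMult a b n lam ≤ plethMult b a n lam := by
  by_cases h : 2 * (b % a) + 3 ≤ a ∨ Even (a + b % a) ∨ (Odd a ∧ 3 * a ≤ b) ∨
      ∃ i : Fin n, (i : ℕ) < a ∧ lam i + a < b
  · exact TQ.tallF a b n ha hab han lam hk hka hlo h
  · push Not at h
    obtain ⟨h1, h2, h3, h4⟩ := h
    have h5 : ∀ i : Fin n, (i : ℕ) < a → b < lam i + a := by
      rcases hex with ⟨i, hi, hi2⟩ | h5 | h5 | h5 | h5
      · exact absurd hi2 (not_lt.2 (h4 i hi))
      · exact h5
      · exact absurd h5 (not_le.2 h1)
      · exact absurd h5 h2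
      · exact absurd h5.2 (not_le.2 (h3 h5.1))
    have hdm := Nat.div_add_mod b a
    have hodd : Odd (a + b) := by
      have h6 : Odd (a + b % a) := Nat.not_even_iff_odd.1 h2
      rcases Nat.even_or_odd a with ha2 | ha2
      · have h7 : Even (a * (b / a)) := ha2.mul_right _
        have h8 : a + b = (a + b % a) + a * (b / a) := by omega
        rw [h8]
        exact h6.add_even h7
      · have h9 := h3 ha2
        have hq : b / a = 2 := by
          apply le_antisymm
          · have h10 : b / a < 3 := (Nat.div_lt_iff_lt_mul (by omega)).2 h9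
            omega
          · exact (Nat.le_div_iff_mul_le (by omega)).2 hab
        have h8 : a + b = (a + b % a) + 2 * a := by
          rw [hq] at hdm
          omega
        rw [h8]
        exact h6.add_even (even_two_mul a)
    exact tall_one a b n ha (by omega) han hodd (Or.inr (Or.inr hab)) lam fun i hi => h5 i hi

end Vale.Agent.P181.H445
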